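import Vale.Agent.P194.Final

namespace Vale.Agent.Results.P194.NotDirectlyFinite

open Vale.Agent.P194

/-- Kaplansky's direct finiteness conjecture fails over the field with two elements. -/
theorem result : ∃ (G : Type) (_ : Group G) (a b : MonoidAlgebra (ZMod 2) G),
    a * b = 1 ∧ b * a ≠ 1 := by
  obtain ⟨V, _, _, D, σ, ex, ν, h1, h2, h3⟩ := exists_all
  obtain ⟨G, _, q, z, -, -, hz, a, b, h4, h5⟩ := central_ext h1 h2 h3
  refine ⟨G, inferInstance, a, b, h4, fun e => hz (h5 G (MonoidHom.id G) ?_)⟩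
  rw [e, map_one]

end Vale.Agent.Results.P194.NotDirectlyFinite
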